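import Vale.Agent.P017.R3.Defs

/-!
# P017: cells (B6)
-/

open Finset

namespace Vale.Agent.P017.R3.H285

open Vale.Agent.P017.H185 (Redei)
open Vale.Agent.P017.R2.H985 (bit PF Pat sym Mat cork)

/-! ### Arithmetic -/

theorem mem_Bx {l : ℝ} (hl : 1 < l) {j e p : ℕ} (h : p ∈ Bx l j e) :
    l ^ j < p ∧ (p : ℝ) ≤ l ^ (j + 1) ∧ p.Prime ∧ p % 4 = e := by
  unfold Bx at h
  rw [mem_filter, mem_Ioc] at h
  obtain ⟨⟨h1, h2⟩, h3, h4⟩ := h
  have h0 : (0 : ℝ) ≤ l ^ (j + 1) := by positivity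
  exact ⟨Nat.lt_of_floor_lt h1, (Nat.le_floor_iff h0).1 h2, h3, h4⟩

theorem bit3 (a : ℕ) (h : ¬ 3 ∣ a) : bit (a : ℤ) 3 = if a % 3 = 2 then 1 else 0 := by
  unfold bit
  rw [jacobiSym.mod_left]
  have h1 : a % 3 = 1 ∨ a % 3 = 2 := by omega
  rcases h1 with h1 | h1
  · have : ((a : ℤ) % ((3 : ℕ) : ℤ)) = 1 := by omega
    rw [this, h1, jacobiSym.one_left]
    simp
  · have : ((a : ℤ) % ((3 : ℕ) : ℤ)) = 2 := by omega
    rw [this, h1]
    have h2 : jacobiSym 2 3 = -1 := by norm_num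
    rw [h2]; simp

theorem bit5 (a : ℕ) (h : ¬ 5 ∣ a) :
    bit (a : ℤ) 5 = if a % 5 = 2 ∨ a % 5 = 3 then 1 else 0 := by
  unfold bit
  rw [jacobiSym.mod_left]
  have h1 : a % 5 = 1 ∨ a % 5 = 2 ∨ a % 5 = 3 ∨ a % 5 = 4 := by omega
  rcases h1 with h1 | h1 | h1 | h1
  · have : ((a : ℤ) % ((5 : ℕ) : ℤ)) = 1 := by omega
    rw [this, h1, jacobiSym.one_left]
    simp
  · have : ((a : ℤ) % ((5 : ℕ) : ℤ)) = 2 := by omega
    rw [this, h1]
    have h2 : jacobiSym 2 5 = -1 := by norm_num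
    rw [h2]; simp
  · have : ((a : ℤ) % ((5 : ℕ) : ℤ)) = 3 := by omega
    rw [this, h1]
    have h2 : jacobiSym 3 5 = -1 := by norm_num
    rw [h2]; simp
  · have : ((a : ℤ) % ((5 : ℕ) : ℤ)) = 4 := by omega
    rw [this, h1]
    have h2 : jacobiSym 4 5 = 1 := by norm_num
    rw [h2]; simp

/-- the condition at 3 -/
theorem ok3 {n p : ℕ} (hn : ¬ 3 ∣ n) (hp : ¬ 3 ∣ p) :
    (3 ∣ n * p ∨ n * p % 3 = 2) ↔ bit (p : ℤ) 3 = 1 + bit (n : ℤ) 3 := by
  rw [bit3 p hp, bit3 n hn]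
  have h0 : ¬ 3 ∣ n * p := by
    intro h
    rcases (Nat.Prime.dvd_mul Nat.prime_three).1 h with h | h
    · exact hn h
    · exact hp h
  have h1 : n % 3 = 1 ∨ n % 3 = 2 := by omega
  have h2 : p % 3 = 1 ∨ p % 3 = 2 := by omega
  rw [or_iff_right h0, Nat.mul_mod]
  rcases h1 with h1 | h1 <;> rcases h2 with h2 | h2 <;> rw [h1, h2] <;> simp <;> decide

theorem ok5 {n p : ℕ} (hn : ¬ 5 ∣ n) (hp : ¬ 5 ∣ p) :
    (5 ∣ n * p ∨ n * p % 5 = 2 ∨ n * p % 5 = 3) ↔ bit (p : ℤ) 5 = 1 + bit (n : ℤ) 5 := by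
  rw [bit5 p hp, bit5 n hn]
  have h0 : ¬ 5 ∣ n * p := by
    intro h
    rcases (Nat.Prime.dvd_mul Nat.prime_five).1 h with h | h
    · exact hn h
    · exact hp h
  have h1 : n % 5 = 1 ∨ n % 5 = 2 ∨ n % 5 = 3 ∨ n % 5 = 4 := by omega
  have h2 : p % 5 = 1 ∨ p % 5 = 2 ∨ p % 5 = 3 ∨ p % 5 = 4 := by omega
  rw [or_iff_right h0, Nat.mul_mod]
  rcases h1 with h1 | h1 | h1 | h1 <;> rcases h2 with h2 | h2 | h2 | h2 <;>
    rw [h1, h2] <;> simp <;> decide

/-! ### Patterns modulo `lcm(n, 15)` -/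

/-- `lcm(n, 15)` -/
abbrev L15 (n : ℕ) : ℕ := Nat.lcm n 15

theorem L15_ne {n : ℕ} (hn : n ≠ 0) : L15 n ≠ 0 := Nat.lcm_ne_zero hn (by norm_num)

theorem mem_L15 {n q : ℕ} (hn : n ≠ 0) :
    q ∈ (L15 n).primeFactors ↔ q ∈ n.primeFactors ∨ q = 3 ∨ q = 5 := by
  rw [Nat.mem_primeFactors_of_ne_zero (L15_ne hn), Nat.mem_primeFactors_of_ne_zero hn]
  constructor
  · rintro ⟨hq, hd⟩
    have h1 : q ∣ n * 15 := hd.trans (Nat.lcm_dvd_mul n 15)
    rcases (Nat.Prime.dvd_mul hq).1 h1 with h | h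
    · exact Or.inl ⟨hq, h⟩
    · have h2 : q ∣ 3 * 5 := h
      rcases (Nat.Prime.dvd_mul hq).1 h2 with h | h
      · exact Or.inr (Or.inl ((Nat.prime_dvd_prime_iff_eq hq Nat.prime_three).1 h))
      · exact Or.inr (Or.inr ((Nat.prime_dvd_prime_iff_eq hq Nat.prime_five).1 h))
  · rintro (⟨hq, hd⟩ | h | h)
    · exact ⟨hq, hd.trans (Nat.dvd_lcm_left n 15)⟩
    · subst h
      exact ⟨Nat.prime_three, (by norm_num : 3 ∣ 15).trans (Nat.dvd_lcm_right n 15)⟩
    · subst h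
      exact ⟨Nat.prime_five, (by norm_num : 5 ∣ 15).trans (Nat.dvd_lcm_right n 15)⟩

/-- the prime factors of `n` among those of `lcm(n, 15)` -/
def eqv {n : ℕ} (hn : n ≠ 0) : {a : PF (L15 n) // (a : ℕ) ∣ n} ≃ PF n where
  toFun a := ⟨(a.1 : ℕ), (Nat.mem_primeFactors_of_ne_zero hn).2
    ⟨Nat.prime_of_mem_primeFactors a.1.2, a.2⟩⟩
  invFun q := ⟨⟨(q : ℕ), (mem_L15 hn).2 (Or.inl q.2)⟩, Nat.dvd_of_mem_primeFactors q.2⟩
  left_inv a := by ext; rfl
  right_inv q := by ext; rfl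

/-- the other primes -/
abbrev RR (n : ℕ) : Type := {a : PF (L15 n) // ¬ (a : ℕ) ∣ n}

/-- restriction -/
def res {n : ℕ} (hn : n ≠ 0) (φ : Pat (L15 n)) : Pat n :=
  fun q => φ ⟨(q : ℕ), (mem_L15 hn).2 (Or.inl q.2)⟩

def split {n : ℕ} (hn : n ≠ 0) : Pat (L15 n) ≃ Pat n × (RR n → ZMod 2) :=
  (Equiv.piEquivPiSubtypeProd (fun a : PF (L15 n) => (a : ℕ) ∣ n) (fun _ => ZMod 2)).trans
    (Equiv.prodCongr (Equiv.arrowCongr (eqv hn) (Equiv.refl _)) (Equiv.refl _))

theorem split_fst {n : ℕ} (hn : n ≠ 0) (φ : Pat (L15 n)) : (split hn φ).1 = res hn φ := rfl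

theorem split_snd {n : ℕ} (hn : n ≠ 0) (φ : Pat (L15 n)) (r : RR n) :
    (split hn φ).2 r = φ r.1 := rfl

theorem card_RR {n : ℕ} (hn : n ≠ 0) : Fintype.card (RR n) = free n := by
  have h1 : Fintype.card (RR n) = ((({3, 5} : Finset ℕ)).filter (fun q => ¬ q ∣ n)).card := by
    rw [← Fintype.card_coe]
    refine Fintype.card_congr ⟨fun a => ⟨(a.1 : ℕ), ?_⟩, fun q => ⟨⟨(q : ℕ), ?_⟩, ?_⟩, ?_, ?_⟩
    · rw [mem_filter]
      refine ⟨?_, a.2⟩
      rcases (mem_L15 hn).1 a.1.2 with h | h | h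
      · exact absurd (Nat.dvd_of_mem_primeFactors h) a.2
      · rw [h]; simp
      · rw [h]; simp
    · have := (mem_filter.1 q.2).1
      rw [mem_insert, mem_singleton] at this
      exact (mem_L15 hn).2 (Or.inr this)
    · exact (mem_filter.1 q.2).2
    · intro a; rfl
    · intro q; rfl
  rw [h1]
  unfold free
  by_cases h3 : 3 ∣ n <;> by_cases h5 : 5 ∣ n <;>
    simp [filter_insert, filter_singleton, h3, h5]

theorem sum_res {n : ℕ} (hn : n ≠ 0) (F : Pat n → ℝ) :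
    ∑ φ : Pat (L15 n), F (res hn φ) = 2 ^ free n * ∑ w : Pat n, F w := by
  rw [← Equiv.sum_comp (split hn).symm, Fintype.sum_prod_type]
  have : ∀ w : Pat n, ∑ v : RR n → ZMod 2, F (res hn ((split hn).symm (w, v))) =
      2 ^ free n * F w := by
    intro w
    have h1 : ∀ v : RR n → ZMod 2, res hn ((split hn).symm (w, v)) = w := by
      intro v
      rw [← split_fst, Equiv.apply_symm_apply]
    simp only [h1, sum_const, card_univ, Fintype.card_fun, ZMod.card, card_RR hn]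
    rw [nsmul_eq_mul]; push_cast; ring
  rw [sum_congr rfl (fun w _ => this w), mul_sum]

open Classical in
theorem sum_ok {n : ℕ} (hn : n ≠ 0) (F : Pat n → ℝ) :
    ∑ φ : Pat (L15 n), (if (∀ q : PF (L15 n), ¬ (q : ℕ) ∣ n → φ q = 1 + bit (n : ℤ) (q : ℕ))
      then F (res hn φ) else 0) = ∑ w : Pat n, F w := by
  rw [← Equiv.sum_comp (split hn).symm, Fintype.sum_prod_type]
  refine sum_congr rfl fun w _ => ?_
  have h1 : ∀ v : RR n → ZMod 2, res hn ((split hn).symm (w, v)) = w := by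
    intro v
    rw [← split_fst, Equiv.apply_symm_apply]
  have h2 : ∀ v : RR n → ZMod 2, (∀ q : PF (L15 n), ¬ (q : ℕ) ∣ n →
      (split hn).symm (w, v) q = 1 + bit (n : ℤ) (q : ℕ)) ↔
      v = fun r => 1 + bit (n : ℤ) ((r.1 : ℕ)) := by
    intro v
    have h3 : ∀ r : RR n, (split hn).symm (w, v) r.1 = v r := by
      intro r
      have := split_snd hn ((split hn).symm (w, v)) r
      rw [Equiv.apply_symm_apply] at this
      exact this.symm
    constructor
    · intro h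
      funext r
      rw [← h3 r]
      exact h r.1 r.2
    · intro h q hq
      rw [h3 ⟨q, hq⟩, h]
  simp only [h1, h2]
  rw [sum_ite_eq' univ]
  simp

theorem card_L15 {n : ℕ} (hn : n ≠ 0) :
    (Fintype.card (Pat (L15 n)) : ℝ) = 2 ^ free n * 2 ^ n.primeFactors.card := by
  have h := sum_res hn (fun _ => (1 : ℝ))
  simp only [sum_const, card_univ, nsmul_eq_mul, mul_one, Fintype.card_fun, ZMod.card,
    Fintype.card_coe] at h
  rw [← Fintype.card_coe] at h
  simp only [Fintype.card_fun, ZMod.card, Fintype.card_coe]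
  rw [← Fintype.card_coe]
  push_cast at h ⊢
  simpa using h

/-! ### Equidistribution -/

theorem sum_sym (l : ℝ) (j e N : ℕ) (G : Pat N → ℝ) :
    ∑ p ∈ Bx l j e, G (sym N p) =
      ∑ φ : Pat N, G φ * (((Bx l j e).filter (fun p => sym N p = φ)).card : ℝ) := by
  have h1 : ∀ φ : Pat N, (((Bx l j e).filter (fun p => sym N p = φ)).card : ℝ) =
      ∑ p ∈ Bx l j e, if sym N p = φ then 1 else 0 := by
    intro φ
    rw [card_filter]
    push_cast
    rfl
  simp only [h1, mul_sum]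
  rw [sum_comm]
  refine sum_congr rfl fun p _ => ?_
  simp

theorem lower {l δ : ℝ} {j e N : ℕ} (h : ¬ Bad l δ j e N) (G : Pat N → ℝ) (hG : ∀ φ, 0 ≤ G φ) :
    (1 - δ) * (Bx l j e).card * ∑ φ, G φ ≤
      Fintype.card (Pat N) * ∑ p ∈ Bx l j e, G (sym N p) := by
  rw [sum_sym, mul_sum, mul_sum]
  refine sum_le_sum fun φ _ => ?_
  unfold Bad at h
  push Not at h
  have h1 := (abs_le.1 (h φ)).1
  have h2 : (1 - δ) * (Bx l j e).card ≤
      Fintype.card (Pat N) * ((Bx l j e).filter (fun p => sym N p = φ)).card := by linarith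
  calc (1 - δ) * (Bx l j e).card * G φ ≤
      (Fintype.card (Pat N) * ((Bx l j e).filter (fun p => sym N p = φ)).card) * G φ :=
        mul_le_mul_of_nonneg_right h2 (hG φ)
    _ = _ := by ring

theorem upper {l δ : ℝ} {j e N : ℕ} (h : ¬ Bad l δ j e N) (G : Pat N → ℝ) (hG : ∀ φ, 0 ≤ G φ) :
    Fintype.card (Pat N) * ∑ p ∈ Bx l j e, G (sym N p) ≤
      (1 + δ) * (Bx l j e).card * ∑ φ, G φ := by
  rw [sum_sym, mul_sum, mul_sum]
  refine sum_le_sum fun φ _ => ?_
  unfold Bad at h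
  push Not at h
  have h1 := (abs_le.1 (h φ)).2
  have h2 : Fintype.card (Pat N) * ((Bx l j e).filter (fun p => sym N p = φ)).card ≤
      (1 + δ) * (Bx l j e).card := by linarith
  calc Fintype.card (Pat N) * (G φ * ((Bx l j e).filter (fun p => sym N p = φ)).card) =
      (Fintype.card (Pat N) * ((Bx l j e).filter (fun p => sym N p = φ)).card) * G φ := by ring
    _ ≤ _ := mul_le_mul_of_nonneg_right h2 (hG φ)

/-- the local conditions are conditions on the symbols -/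
theorem okc_iff {n p : ℕ} (hn : n ≠ 0) (hp : p.Prime) (h5 : 5 < p) :
    OKc (n * p) ↔ ∀ q : PF (L15 n), ¬ (q : ℕ) ∣ n →
      sym (L15 n) p q = 1 + bit (n : ℤ) (q : ℕ) := by
  have h3p : ¬ 3 ∣ p := fun h => by
    have := (Nat.prime_dvd_prime_iff_eq Nat.prime_three hp).1 h; omega
  have h5p : ¬ 5 ∣ p := fun h => by
    have := (Nat.prime_dvd_prime_iff_eq Nat.prime_five hp).1 h; omega
  constructor
  · rintro ⟨c3, c5⟩ ⟨q, hq⟩ hqn
    change bit (p : ℤ) q = 1 + bit (n : ℤ) q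
    rcases (mem_L15 hn).1 hq with h | h | h
    · exact absurd (Nat.dvd_of_mem_primeFactors h) hqn
    · subst h; exact (ok3 hqn h3p).1 c3
    · subst h; exact (ok5 hqn h5p).1 c5
  · intro h
    constructor
    · by_cases hd : 3 ∣ n
      · exact Or.inl (hd.mul_right p)
      · exact (ok3 hd h3p).2 (h ⟨3, (mem_L15 hn).2 (Or.inr (Or.inl rfl))⟩ hd)
    · by_cases hd : 5 ∣ n
      · exact Or.inl (hd.mul_right p)
      · exact (ok5 hd h5p).2 (h ⟨5, (mem_L15 hn).2 (Or.inr (Or.inr rfl))⟩ hd)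

theorem res_sym {n : ℕ} (hn : n ≠ 0) (p : ℕ) : res hn (sym (L15 n) p) = sym n p := rfl

theorem free_mul {n p : ℕ} (hp : p.Prime) (h5 : 5 < p) : free (n * p) = free n := by
  have h3 : 3 ∣ n * p ↔ 3 ∣ n := by
    rw [Nat.Prime.dvd_mul Nat.prime_three, or_iff_left]
    intro h
    have := (Nat.prime_dvd_prime_iff_eq Nat.prime_three hp).1 h; omega
  have h5' : 5 ∣ n * p ↔ 5 ∣ n := by
    rw [Nat.Prime.dvd_mul Nat.prime_five, or_iff_left]
    intro h
    have := (Nat.prime_dvd_prime_iff_eq Nat.prime_five hp).1 h; omega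
  unfold free
  simp only [h3, h5']

/-! ### The induction -/

theorem step_data {l : ℝ} (hl : 1 < l) {j e n p : ℕ} (h5 : 5 ≤ l ^ j) (hs : Squarefree n)
    (ho : Odd n) (hq : ∀ q ∈ n.primeFactors, (q : ℝ) ≤ l ^ j) (hp : p ∈ Bx l j e) :
    p.Prime ∧ 5 < p ∧ ¬ p ∣ n ∧ p % 4 = e ∧ Squarefree (n * p) ∧ Odd (n * p) ∧
      ∀ j' : ℕ, j < j' → ∀ q ∈ (n * p).primeFactors, (q : ℝ) ≤ l ^ j' := by
  obtain ⟨h1, h2, h3, h4⟩ := mem_Bx hl hp
  have h5' : 5 < p := by
    have : (5 : ℝ) < p := lt_of_le_of_lt h5 h1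
    exact_mod_cast this
  have hn0 : n ≠ 0 := hs.ne_zero
  have hnd : ¬ p ∣ n := fun hd =>
    absurd (hq p (Nat.mem_primeFactors.2 ⟨h3, hd, hn0⟩)) (not_le.2 h1)
  have hcop : Nat.Coprime n p := ((Nat.Prime.coprime_iff_not_dvd h3).2 hnd).symm
  refine ⟨h3, h5', hnd, h4, (Nat.squarefree_mul hcop).2 ⟨hs, h3.squarefree⟩,
    ho.mul (h3.odd_of_ne_two (by omega)), ?_⟩
  intro j' hj q hqm
  have hmono : ∀ a b : ℕ, a ≤ b → l ^ a ≤ l ^ b := fun a b hab => pow_le_pow_right₀ hl.le hab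
  rw [Nat.primeFactors_mul hn0 h3.ne_zero, mem_union] at hqm
  rcases hqm with h | h
  · exact (hq q h).trans (hmono _ _ hj.le)
  · rw [h3.primeFactors, mem_singleton] at h
    rw [h]
    exact h2.trans (hmono _ _ hj)

theorem All_nonneg (l : ℝ) (bs : List (ℕ × ℕ)) : (0 : ℝ) ≤ All l bs := Nat.cast_nonneg _

open Classical in
theorem Cnt_le_All (l : ℝ) : ∀ (bs : List (ℕ × ℕ)) (n : ℕ), Tot l bs n ≤ All l bs
  | [], n => by
    unfold Tot All
    split_ifs <;> omega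
  | b :: bs, n => by
    unfold Tot All
    calc ∑ p ∈ Bx l b.1 b.2, Tot l bs (n * p) ≤ ∑ p ∈ Bx l b.1 b.2, All l bs :=
          sum_le_sum fun p _ => Cnt_le_All l bs (n * p)
      _ = (Bx l b.1 b.2).card * All l bs := by rw [sum_const, smul_eq_mul]

open Classical in
/-- (B6), upper bound -/
theorem tot_le {l δ : ℝ} (hl : 1 < l) (hδ : 0 < δ) : ∀ (bs : List (ℕ × ℕ)) (b : ℕ × ℕ),
    ((b :: bs).map Prod.fst).Pairwise (· < ·) → 5 ≤ l ^ b.1 → ∀ n : ℕ, Squarefree n → Odd n →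
    (∀ p ∈ n.primeFactors, (p : ℝ) ≤ l ^ b.1) →
    (Tot l (b :: bs) n : ℝ) ≤ (1 + δ) * ((All l (b :: bs) : ℝ) / 2 ^ free n) +
      ExW l δ (b :: bs) n := by
  intro bs
  induction bs with
  | nil =>
    intro b _ h5 n hs ho hq
    have hn0 : n ≠ 0 := hs.ne_zero
    by_cases hbad : Bad l δ b.1 b.2 (Nat.lcm n 15)
    · have h1 : (Tot l [b] n : ℝ) ≤ All l [b] := by exact_mod_cast Cnt_le_All l [b] n
      have h2 : (All l [b] : ℝ) ≤ ExW l δ [b] n := by
        have : All l [b] ≤ ExW l δ [b] n := by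
          unfold ExW
          rw [if_pos hbad]
          omega
        exact_mod_cast this
      have h3 : (0 : ℝ) ≤ (1 + δ) * ((All l [b] : ℝ) / 2 ^ free n) := by
        have := All_nonneg l [b]
        positivity
      linarith
    · have hup := upper hbad (fun φ : Pat (L15 n) =>
        if (∀ q : PF (L15 n), ¬ (q : ℕ) ∣ n → φ q = 1 + bit (n : ℤ) (q : ℕ)) then (1 : ℝ) else 0)
        (fun φ => by split_ifs <;> norm_num)
      rw [sum_ok hn0 (fun _ => (1 : ℝ))] at hup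
      have h1 : (Tot l [b] n : ℝ) = ∑ p ∈ Bx l b.1 b.2,
          (if (∀ q : PF (L15 n), ¬ (q : ℕ) ∣ n → sym (L15 n) p q = 1 + bit (n : ℤ) (q : ℕ))
            then (1 : ℝ) else 0) := by
        unfold Tot
        push_cast
        refine sum_congr rfl fun p hp => ?_
        obtain ⟨d1, d2, -⟩ := step_data hl h5 hs ho hq hp
        unfold Tot
        rw [apply_ite (Nat.cast : ℕ → ℝ), Nat.cast_one, Nat.cast_zero]
        exact if_congr (okc_iff hn0 d1 d2) rfl rfl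
      have h2 : (All l [b] : ℝ) = (Bx l b.1 b.2).card := by
        unfold All All
        push_cast
        ring
      have h3 : ∑ w : Pat n, (1 : ℝ) = 2 ^ n.primeFactors.card := by
        rw [sum_const, card_univ, Fintype.card_fun, ZMod.card, Fintype.card_coe, nsmul_eq_mul]
        push_cast
        ring
      rw [← h1, card_L15 hn0, h3] at hup
      rw [h2]
      have h4 : (0 : ℝ) ≤ ExW l δ [b] n := Nat.cast_nonneg _
      have h5 : (0 : ℝ) < 2 ^ free n := by positivity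
      have h6 : (0 : ℝ) < 2 ^ n.primeFactors.card := by positivity
      have h7 : (Tot l [b] n : ℝ) ≤ (1 + δ) * ((Bx l b.1 b.2).card / 2 ^ free n) := by
        rw [← mul_div_assoc, le_div_iff₀ h5]
        refine le_of_mul_le_mul_right ?_ h6
        nlinarith [hup]
      linarith
  | cons b' bs ih =>
    intro b hpw h5 n hs ho hq
    have hlt : b.1 < b'.1 := by
      simp only [List.map_cons, List.pairwise_cons, List.mem_cons] at hpw
      exact hpw.1 _ (Or.inl rfl)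
    have hpw' : ((b' :: bs).map Prod.fst).Pairwise (· < ·) := by
      rw [List.map_cons, List.pairwise_cons] at hpw
      exact hpw.2
    have h5' : 5 ≤ l ^ b'.1 := h5.trans (pow_le_pow_right₀ hl.le hlt.le)
    have h1 : (Tot l (b :: b' :: bs) n : ℝ) = ∑ p ∈ Bx l b.1 b.2, (Tot l (b' :: bs) (n * p) : ℝ) := by
      rw [Tot]
      push_cast
      rfl
    have h2 : (All l (b :: b' :: bs) : ℝ) = (Bx l b.1 b.2).card * All l (b' :: bs) := by
      rw [All]
      push_cast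
      rfl
    have h3 : ∑ p ∈ Bx l b.1 b.2, (ExW l δ (b' :: bs) (n * p) : ℝ) ≤ ExW l δ (b :: b' :: bs) n := by
      have : ∑ p ∈ Bx l b.1 b.2, ExW l δ (b' :: bs) (n * p) ≤ ExW l δ (b :: b' :: bs) n := by
        rw [ExW.eq_2 l δ n b (b' :: bs)]
        omega
      exact_mod_cast this
    rw [h1]
    calc ∑ p ∈ Bx l b.1 b.2, (Tot l (b' :: bs) (n * p) : ℝ) ≤
        ∑ p ∈ Bx l b.1 b.2, ((1 + δ) * ((All l (b' :: bs) : ℝ) / 2 ^ free n) +
          ExW l δ (b' :: bs) (n * p)) := by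
          refine sum_le_sum fun p hp => ?_
          obtain ⟨d1, d2, -, -, d3, d4, d5⟩ := step_data hl h5 hs ho hq hp
          have := ih b' hpw' h5' (n * p) d3 d4 (d5 _ hlt)
          rwa [free_mul d1 d2] at this
      _ = (1 + δ) * ((All l (b :: b' :: bs) : ℝ) / 2 ^ free n) +
          ∑ p ∈ Bx l b.1 b.2, (ExW l δ (b' :: bs) (n * p) : ℝ) := by
          rw [sum_add_distrib, sum_const, nsmul_eq_mul, h2]
          ring
      _ ≤ _ := by linarith

theorem Cnt_nonneg (l : ℝ) (bs : List (ℕ × ℕ)) (n : ℕ) : (0 : ℝ) ≤ Cnt l bs n :=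
  Nat.cast_nonneg _

/-- a bad prefix pays for everything -/
theorem bad_case {δ F A E f C : ℝ} {k : ℕ} (hδ : 0 < δ) (hδ1 : δ < 1) (hF0 : 0 ≤ F) (hF1 : F ≤ 1)
    (hA : 0 ≤ A) (hf : 1 ≤ f) (hE : A ≤ E) (hC : 0 ≤ C) :
    (1 - δ) ^ k * (F * (A / f)) - E ≤ C := by
  have h1 : (1 - δ) ^ k ≤ 1 := pow_le_one₀ (by linarith) (by linarith)
  have h0 : 0 ≤ (1 - δ) ^ k := pow_nonneg (by linarith) _
  have h2 : A / f ≤ A := div_le_self hA hf
  have h3 : 0 ≤ A / f := by positivity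
  have h4 : F * (A / f) ≤ A := by nlinarith
  have h5 : 0 ≤ F * (A / f) := by positivity
  nlinarith

open Classical in
/-- (B6), lower bound -/
theorem le_cnt (hD : StmtDict) (hR : StmtRed2) {l δ : ℝ} (hl : 1 < l) (hδ : 0 < δ) (hδ1 : δ < 1) :
    ∀ (bs : List (ℕ × ℕ)) (b : ℕ × ℕ),
    ((b :: bs).map Prod.fst).Pairwise (· < ·) → (∀ c ∈ b :: bs, c.2 = 1 ∨ c.2 = 3) →
    5 ≤ l ^ b.1 → ∀ n : ℕ, Squarefree n → Odd n →
    (∀ p ∈ n.primeFactors, (p : ℝ) ≤ l ^ b.1) →
    (1 - δ) ^ (b :: bs).length * (FF (((b :: bs).dropLast).map (fun c => eps c.2)) n *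
      ((All l (b :: bs) : ℝ) / 2 ^ free n)) - ExW l δ (b :: bs) n ≤ Cnt l (b :: bs) n := by
  obtain ⟨-, hD2, hD3, hD4⟩ := hD
  intro bs
  induction bs with
  | nil =>
    intro b _ hcl h5 n hs ho hq
    have hn0 : n ≠ 0 := hs.ne_zero
    have hf : (1 : ℝ) ≤ 2 ^ free n := one_le_pow₀ (by norm_num)
    by_cases hbad : Bad l δ b.1 b.2 (Nat.lcm n 15)
    · have h2 : (All l [b] : ℝ) ≤ ExW l δ [b] n := by
        have : All l [b] ≤ ExW l δ [b] n := by
          unfold ExW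
          rw [if_pos hbad]
          omega
        exact_mod_cast this
      exact bad_case hδ hδ1 (hD3 _ n).1 (hD3 _ n).2 (All_nonneg _ _) hf h2 (Cnt_nonneg _ _ _)
    · have hlo := lower hbad (fun φ : Pat (L15 n) =>
        if (∀ q : PF (L15 n), ¬ (q : ℕ) ∣ n → φ q = 1 + bit (n : ℤ) (q : ℕ))
          then (if cork n (res hn0 φ) = 0 then (1 : ℝ) else 0) else 0)
        (fun φ => by split_ifs <;> norm_num)
      rw [sum_ok hn0 (fun w => if cork n w = 0 then (1 : ℝ) else 0)] at hlo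
      have h1 : ∑ p ∈ Bx l b.1 b.2,
          (if (∀ q : PF (L15 n), ¬ (q : ℕ) ∣ n → sym (L15 n) p q = 1 + bit (n : ℤ) (q : ℕ))
            then (if cork n (res hn0 (sym (L15 n) p)) = 0 then (1 : ℝ) else 0) else 0) ≤
          (Cnt l [b] n : ℝ) := by
        rw [Cnt]
        push_cast
        refine sum_le_sum fun p hp => ?_
        obtain ⟨d1, d2, d3, -, -, d4, -⟩ := step_data hl h5 hs ho hq hp
        rw [Cnt, apply_ite (Nat.cast : ℕ → ℝ), Nat.cast_one, Nat.cast_zero]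
        by_cases c1 : ∀ q : PF (L15 n), ¬ (q : ℕ) ∣ n →
            sym (L15 n) p q = 1 + bit (n : ℤ) (q : ℕ)
        · rw [if_pos c1]
          by_cases c2 : cork n (res hn0 (sym (L15 n) p)) = 0
          · rw [if_pos c2]
            have c3 : Redei (n * p) := hR n hs ho p d1 (by omega) d3 c2
            rw [if_pos ⟨(okc_iff hn0 d1 d2).2 c1, c3⟩]
          · rw [if_neg c2]
            split_ifs <;> norm_num
        · rw [if_neg c1]
          split_ifs <;> norm_num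
      have h2 : (All l [b] : ℝ) = (Bx l b.1 b.2).card := by
        rw [All, All]
        push_cast
        ring
      have h3 : ∑ w : Pat n, (if cork n w = 0 then (1 : ℝ) else 0) =
          2 ^ n.primeFactors.card * FF [] n := by
        have h4 := hD2 n (fun k => if k = 0 then (1 : ℝ) else 0)
        rw [h4]
        unfold FF avg
        simp only [prob, Fintype.card_coe]
        field_simp
      rw [card_L15 hn0, h3] at hlo
      have h4 : (0 : ℝ) ≤ ExW l δ [b] n := Nat.cast_nonneg _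
      have h6 : (0 : ℝ) < 2 ^ n.primeFactors.card := by positivity
      have h7 : (0 : ℝ) < 2 ^ free n := by positivity
      have h8 : (1 - δ) * (FF [] n * ((Bx l b.1 b.2).card / 2 ^ free n)) ≤ Cnt l [b] n := by
        have : (1 - δ) * (FF [] n * ((Bx l b.1 b.2).card / 2 ^ free n)) =
          ((1 - δ) * (Bx l b.1 b.2).card * FF [] n) / 2 ^ free n := by ring
        rw [this, div_le_iff₀ h7]
        refine le_of_mul_le_mul_right ?_ h6
        nlinarith [hlo, mul_le_mul_of_nonneg_left h1 (mul_nonneg h7.le h6.le)]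
      rw [h2]
      simp only [List.length_singleton, List.dropLast_singleton, List.map_nil, pow_one]
      linarith
  | cons b' bs ih =>
    intro b hpw hcl h5 n hs ho hq
    have hn0 : n ≠ 0 := hs.ne_zero
    have hf : (1 : ℝ) ≤ 2 ^ free n := one_le_pow₀ (by norm_num)
    have hlt : b.1 < b'.1 := by
      simp only [List.map_cons, List.pairwise_cons, List.mem_cons] at hpw
      exact hpw.1 _ (Or.inl rfl)
    have hpw' : ((b' :: bs).map Prod.fst).Pairwise (· < ·) := by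
      rw [List.map_cons, List.pairwise_cons] at hpw
      exact hpw.2
    have hcl' : ∀ c ∈ b' :: bs, c.2 = 1 ∨ c.2 = 3 := fun c hc => hcl c (List.mem_cons_of_mem _ hc)
    have h5' : 5 ≤ l ^ b'.1 := h5.trans (pow_le_pow_right₀ hl.le hlt.le)
    have h1 : (Cnt l (b :: b' :: bs) n : ℝ) = ∑ p ∈ Bx l b.1 b.2, (Cnt l (b' :: bs) (n * p) : ℝ) := by
      rw [Cnt]
      push_cast
      rfl
    have h2 : (All l (b :: b' :: bs) : ℝ) = (Bx l b.1 b.2).card * All l (b' :: bs) := by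
      rw [All]
      push_cast
      rfl
    by_cases hbad : Bad l δ b.1 b.2 (Nat.lcm n 15)
    · have h3 : (All l (b :: b' :: bs) : ℝ) ≤ ExW l δ (b :: b' :: bs) n := by
        have : All l (b :: b' :: bs) ≤ ExW l δ (b :: b' :: bs) n := by
          rw [ExW.eq_2 l δ n b (b' :: bs), if_pos hbad]
          omega
        exact_mod_cast this
      exact bad_case hδ hδ1 (hD3 _ n).1 (hD3 _ n).2 (All_nonneg _ _) hf h3 (Cnt_nonneg _ _ _)
    · have h3 : ∑ p ∈ Bx l b.1 b.2, (ExW l δ (b' :: bs) (n * p) : ℝ) ≤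
          ExW l δ (b :: b' :: bs) n := by
        have : ∑ p ∈ Bx l b.1 b.2, ExW l δ (b' :: bs) (n * p) ≤ ExW l δ (b :: b' :: bs) n := by
          rw [ExW.eq_2 l δ n b (b' :: bs)]
          omega
        exact_mod_cast this
      set E := ((b' :: bs).dropLast).map (fun c => eps c.2) with hE
      have hE' : ((b :: b' :: bs).dropLast).map (fun c => eps c.2) = eps b.2 :: E := rfl
      obtain ⟨G, hG0, hG1, hG2⟩ := hD4 n hs ho E b.2 (hcl b (List.mem_cons_self ..))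
      have hlo := lower hbad (fun φ : Pat (L15 n) => G (res hn0 φ)) (fun φ => hG0 _)
      rw [sum_res hn0 G, hG2, card_L15 hn0] at hlo
      have h6 : (0 : ℝ) < 2 ^ n.primeFactors.card := by positivity
      have h7 : (0 : ℝ) < 2 ^ free n := by positivity
      have h8 : (1 - δ) * (Bx l b.1 b.2).card * FF (eps b.2 :: E) n ≤
          ∑ p ∈ Bx l b.1 b.2, G (sym n p) := by
        have h9 : (0 : ℝ) < 2 ^ free n * 2 ^ n.primeFactors.card := by positivity
        refine le_of_mul_le_mul_left ?_ h9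
        have h10 : ∑ p ∈ Bx l b.1 b.2, G (res hn0 (sym (L15 n) p)) =
          ∑ p ∈ Bx l b.1 b.2, G (sym n p) := rfl
        rw [← h10]
        nlinarith [hlo]
      have h11 : ∑ p ∈ Bx l b.1 b.2, FF E (n * p) = ∑ p ∈ Bx l b.1 b.2, G (sym n p) := by
        refine sum_congr rfl fun p hp => ?_
        obtain ⟨d1, d2, d3, d4, -⟩ := step_data hl h5 hs ho hq hp
        exact hG1 p d1 d3 d4
      rw [h1, hE']
      have h12 : ∑ p ∈ Bx l b.1 b.2, ((1 - δ) ^ (b' :: bs).length * (FF E (n * p) *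
          ((All l (b' :: bs) : ℝ) / 2 ^ free n)) - ExW l δ (b' :: bs) (n * p)) ≤
          ∑ p ∈ Bx l b.1 b.2, (Cnt l (b' :: bs) (n * p) : ℝ) := by
        refine sum_le_sum fun p hp => ?_
        obtain ⟨d1, d2, -, -, d3, d4, d5⟩ := step_data hl h5 hs ho hq hp
        have := ih b' hpw' hcl' h5' (n * p) d3 d4 (d5 _ hlt)
        rwa [free_mul d1 d2] at this
      refine le_trans ?_ h12
      rw [sum_sub_distrib, ← mul_sum, ← sum_mul, h11, List.length_cons, pow_succ, h2]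
      have h13 : 0 ≤ (1 - δ) ^ (b' :: bs).length := pow_nonneg (by linarith) _
      have h14 : 0 ≤ (All l (b' :: bs) : ℝ) / 2 ^ free n := by
        have := All_nonneg l (b' :: bs)
        positivity
      have h15 := mul_le_mul_of_nonneg_left (mul_le_mul_of_nonneg_right h8 h14) h13
      have h16 : (1 - δ) ^ (b' :: bs).length * (1 - δ) *
          (FF (eps b.2 :: E) n * ((Bx l b.1 b.2).card * (All l (b' :: bs) : ℝ) / 2 ^ free n)) =
          (1 - δ) ^ (b' :: bs).length * ((1 - δ) * (Bx l b.1 b.2).card * FF (eps b.2 :: E) n *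
            ((All l (b' :: bs) : ℝ) / 2 ^ free n)) := by ring
      rw [h16]
      linarith

/-- (B6) -/
theorem stmtCell (hD : StmtDict) (hR : StmtRed2) : StmtCell := by
  intro l δ hl hδ hδ1 b bs hpw hcl h5 n hs ho hq
  exact ⟨le_cnt hD hR hl hδ hδ1 bs b hpw hcl h5 n hs ho hq, tot_le hl hδ bs b hpw h5 n hs ho hq⟩

end Vale.Agent.P017.R3.H285
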