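import Vale.Agent.P017.R3.Sys
import Vale.Agent.P017.R3.H285.Cell

/-!
# P017: cells for an abstract system (B6')
-/

open Finset

namespace Vale.Agent.P017.R3.H285

open Vale.Agent.P017.R2.H985 (bit PF Pat sym Mat cork)

open Classical in
theorem Tot_le_All (S : Sys) (l : ℝ) : ∀ (bs : List (ℕ × ℕ)) (n : ℕ), S.Tot l bs n ≤ All l bs
  | [], n => by
    unfold Sys.Tot All
    split_ifs <;> omega
  | b :: bs, n => by
    unfold Sys.Tot All
    calc ∑ p ∈ Bx l b.1 b.2, S.Tot l bs (n * p) ≤ ∑ p ∈ Bx l b.1 b.2, All l bs :=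
          sum_le_sum fun p _ => Tot_le_All S l bs (n * p)
      _ = (Bx l b.1 b.2).card * All l bs := by rw [sum_const, smul_eq_mul]

theorem card_pos (N : ℕ) : (0 : ℝ) < Fintype.card (Pat N) := by
  exact_mod_cast Fintype.card_pos

theorem ExW_bad {l δ : ℝ} {b : ℕ × ℕ} {bs : List (ℕ × ℕ)} {n : ℕ}
    (h : Bad l δ b.1 b.2 (Nat.lcm n 15)) : (All l (b :: bs) : ℝ) ≤ ExW l δ (b :: bs) n := by
  have : All l (b :: bs) ≤ ExW l δ (b :: bs) n := by
    rw [ExW.eq_2 l δ n b bs, if_pos h]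
    omega
  exact_mod_cast this

theorem ExW_sum (l δ : ℝ) (b : ℕ × ℕ) (bs : List (ℕ × ℕ)) (n : ℕ) :
    ∑ p ∈ Bx l b.1 b.2, (ExW l δ bs (n * p) : ℝ) ≤ ExW l δ (b :: bs) n := by
  have : ∑ p ∈ Bx l b.1 b.2, ExW l δ bs (n * p) ≤ ExW l δ (b :: bs) n := by
    rw [ExW.eq_2 l δ n b bs]
    omega
  exact_mod_cast this

theorem All_cons (l : ℝ) (b : ℕ × ℕ) (bs : List (ℕ × ℕ)) :
    (All l (b :: bs) : ℝ) = (Bx l b.1 b.2).card * All l bs := by
  rw [All]
  push_cast
  rfl

open Classical in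
/-- (B6'), upper bound -/
theorem tot_le' {S : Sys} (hS : S.Hyp) {l δ : ℝ} (hl : 1 < l) (hδ : 0 < δ) :
    ∀ (bs : List (ℕ × ℕ)) (b : ℕ × ℕ),
    ((b :: bs).map Prod.fst).Pairwise (· < ·) → (∀ c ∈ b :: bs, c.2 = 1 ∨ c.2 = 3) →
    5 ≤ l ^ b.1 → ∀ n : ℕ, Squarefree n → Odd n →
    (∀ p ∈ n.primeFactors, (p : ℝ) ≤ l ^ b.1) →
    (S.Tot l (b :: bs) n : ℝ) ≤ (1 + δ) * ((All l (b :: bs) : ℝ) / 2 ^ S.fr n) +
      ExW l δ (b :: bs) n := by
  intro bs
  induction bs with
  | nil =>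
    intro b _ hcl h5 n hs ho hq
    by_cases hbad : Bad l δ b.1 b.2 (Nat.lcm n 15)
    · have h1 : (S.Tot l [b] n : ℝ) ≤ All l [b] := by exact_mod_cast Tot_le_All S l [b] n
      have h2 : (All l [b] : ℝ) ≤ ExW l δ [b] n := ExW_bad hbad
      have h3 : (0 : ℝ) ≤ (1 + δ) * ((All l [b] : ℝ) / 2 ^ S.fr n) := by
        have := All_nonneg l [b]
        positivity
      linarith
    · obtain ⟨A, B, hA, hB, hA2, hB2⟩ := hS.base n hs ho b.2 (hcl b (List.mem_cons_self ..))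
      have hup := upper hbad (fun φ : Pat (Nat.lcm n 15) => if φ ∈ B then (1 : ℝ) else 0)
        (fun φ => by split_ifs <;> norm_num)
      have hs1 : ∑ φ : Pat (Nat.lcm n 15), (if φ ∈ B then (1 : ℝ) else 0) = B.card := by
        rw [sum_ite_mem, univ_inter, sum_const, nsmul_eq_mul, mul_one]
      rw [hs1] at hup
      have h1 : (S.Tot l [b] n : ℝ) ≤ ∑ p ∈ Bx l b.1 b.2,
          (if sym (Nat.lcm n 15) p ∈ B then (1 : ℝ) else 0) := by
        rw [Sys.Tot]
        push_cast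
        refine sum_le_sum fun p hp => ?_
        obtain ⟨d1, d2, d3, d4, -⟩ := step_data hl h5 hs ho hq hp
        rw [Sys.Tot, apply_ite (Nat.cast : ℕ → ℝ), Nat.cast_one, Nat.cast_zero]
        by_cases c1 : S.OK (n * p)
        · rw [if_pos c1, if_pos (hB p d1 d2 d3 d4 c1)]
        · rw [if_neg c1]
          split_ifs <;> norm_num
      have h2 : (All l [b] : ℝ) = (Bx l b.1 b.2).card := by
        rw [All_cons, All]
        push_cast
        ring
      have h4 : (0 : ℝ) ≤ ExW l δ [b] n := Nat.cast_nonneg _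
      have hc := card_pos (Nat.lcm n 15)
      have h7 : (S.Tot l [b] n : ℝ) ≤ (1 + δ) * ((Bx l b.1 b.2).card / 2 ^ S.fr n) := by
        refine le_of_mul_le_mul_left ?_ hc
        have h8 : (0 : ℝ) ≤ (1 + δ) * (Bx l b.1 b.2).card := by positivity
        calc (Fintype.card (Pat (Nat.lcm n 15)) : ℝ) * S.Tot l [b] n ≤
            Fintype.card (Pat (Nat.lcm n 15)) * ∑ p ∈ Bx l b.1 b.2,
              (if sym (Nat.lcm n 15) p ∈ B then (1 : ℝ) else 0) :=
              mul_le_mul_of_nonneg_left h1 hc.le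
          _ ≤ (1 + δ) * (Bx l b.1 b.2).card * B.card := hup
          _ ≤ (1 + δ) * (Bx l b.1 b.2).card * (Fintype.card (Pat (Nat.lcm n 15)) / 2 ^ S.fr n) :=
              mul_le_mul_of_nonneg_left hB2 h8
          _ = _ := by ring
      rw [h2]
      linarith
  | cons b' bs ih =>
    intro b hpw hcl h5 n hs ho hq
    have hlt : b.1 < b'.1 := by
      simp only [List.map_cons, List.pairwise_cons, List.mem_cons] at hpw
      exact hpw.1 _ (Or.inl rfl)
    have hpw' : ((b' :: bs).map Prod.fst).Pairwise (· < ·) := by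
      rw [List.map_cons, List.pairwise_cons] at hpw
      exact hpw.2
    have hcl' : ∀ c ∈ b' :: bs, c.2 = 1 ∨ c.2 = 3 := fun c hc => hcl c (List.mem_cons_of_mem _ hc)
    have h5' : 5 ≤ l ^ b'.1 := h5.trans (pow_le_pow_right₀ hl.le hlt.le)
    have h1 : (S.Tot l (b :: b' :: bs) n : ℝ) =
        ∑ p ∈ Bx l b.1 b.2, (S.Tot l (b' :: bs) (n * p) : ℝ) := by
      rw [Sys.Tot]
      push_cast
      rfl
    have h3 := ExW_sum l δ b (b' :: bs) n
    rw [h1]
    calc ∑ p ∈ Bx l b.1 b.2, (S.Tot l (b' :: bs) (n * p) : ℝ) ≤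
        ∑ p ∈ Bx l b.1 b.2, ((1 + δ) * ((All l (b' :: bs) : ℝ) / 2 ^ S.fr n) +
          ExW l δ (b' :: bs) (n * p)) := by
          refine sum_le_sum fun p hp => ?_
          obtain ⟨d1, d2, -, -, d3, d4, d5⟩ := step_data hl h5 hs ho hq hp
          have := ih b' hpw' hcl' h5' (n * p) d3 d4 (d5 _ hlt)
          rwa [hS.frp n p d1 d2] at this
      _ = (1 + δ) * ((All l (b :: b' :: bs) : ℝ) / 2 ^ S.fr n) +
          ∑ p ∈ Bx l b.1 b.2, (ExW l δ (b' :: bs) (n * p) : ℝ) := by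
          rw [sum_add_distrib, sum_const, nsmul_eq_mul, All_cons l b]
          ring
      _ ≤ _ := by linarith

open Classical in
/-- (B6'), lower bound -/
theorem le_cnt' {S : Sys} (hS : S.Hyp) {l δ : ℝ} (hl : 1 < l) (hδ : 0 < δ) (hδ1 : δ < 1) :
    ∀ (bs : List (ℕ × ℕ)) (b : ℕ × ℕ),
    ((b :: bs).map Prod.fst).Pairwise (· < ·) → (∀ c ∈ b :: bs, c.2 = 1 ∨ c.2 = 3) →
    5 ≤ l ^ b.1 → ∀ n : ℕ, Squarefree n → Odd n →
    (∀ p ∈ n.primeFactors, (p : ℝ) ≤ l ^ b.1) →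
    (1 - δ) ^ (b :: bs).length * (S.f (((b :: bs).dropLast).map (fun c => eps c.2)) n *
      ((All l (b :: bs) : ℝ) / 2 ^ S.fr n)) - ExW l δ (b :: bs) n ≤ S.Cnt l (b :: bs) n := by
  intro bs
  induction bs with
  | nil =>
    intro b _ hcl h5 n hs ho hq
    have hf : (1 : ℝ) ≤ 2 ^ S.fr n := one_le_pow₀ (by norm_num)
    by_cases hbad : Bad l δ b.1 b.2 (Nat.lcm n 15)
    · exact bad_case hδ hδ1 (hS.range _ n).1 (hS.range _ n).2 (All_nonneg _ _) hf (ExW_bad hbad)
        (Nat.cast_nonneg _)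
    · obtain ⟨A, B, hA, hB, hA2, hB2⟩ := hS.base n hs ho b.2 (hcl b (List.mem_cons_self ..))
      have hlo := lower hbad (fun φ : Pat (Nat.lcm n 15) => if φ ∈ A then (1 : ℝ) else 0)
        (fun φ => by split_ifs <;> norm_num)
      have hs1 : ∑ φ : Pat (Nat.lcm n 15), (if φ ∈ A then (1 : ℝ) else 0) = A.card := by
        rw [sum_ite_mem, univ_inter, sum_const, nsmul_eq_mul, mul_one]
      rw [hs1] at hlo
      have h1 : ∑ p ∈ Bx l b.1 b.2, (if sym (Nat.lcm n 15) p ∈ A then (1 : ℝ) else 0) ≤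
          (S.Cnt l [b] n : ℝ) := by
        rw [Sys.Cnt]
        push_cast
        refine sum_le_sum fun p hp => ?_
        obtain ⟨d1, d2, d3, d4, -⟩ := step_data hl h5 hs ho hq hp
        rw [Sys.Cnt, apply_ite (Nat.cast : ℕ → ℝ), Nat.cast_one, Nat.cast_zero]
        by_cases c1 : sym (Nat.lcm n 15) p ∈ A
        · rw [if_pos c1, if_pos (hA p d1 d2 d3 d4 c1)]
        · rw [if_neg c1]
          split_ifs <;> norm_num
      have h2 : (All l [b] : ℝ) = (Bx l b.1 b.2).card := by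
        rw [All_cons, All]
        push_cast
        ring
      have h4 : (0 : ℝ) ≤ ExW l δ [b] n := Nat.cast_nonneg _
      have hc := card_pos (Nat.lcm n 15)
      have h8 : (1 - δ) * (S.f [] n * ((Bx l b.1 b.2).card / 2 ^ S.fr n)) ≤ S.Cnt l [b] n := by
        refine le_of_mul_le_mul_left ?_ hc
        have h9 : (0 : ℝ) ≤ (1 - δ) * (Bx l b.1 b.2).card :=
          mul_nonneg (by linarith) (Nat.cast_nonneg _)
        calc (Fintype.card (Pat (Nat.lcm n 15)) : ℝ) *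
            ((1 - δ) * (S.f [] n * ((Bx l b.1 b.2).card / 2 ^ S.fr n))) =
            (1 - δ) * (Bx l b.1 b.2).card *
              (S.f [] n * (Fintype.card (Pat (Nat.lcm n 15)) / 2 ^ S.fr n)) := by ring
          _ ≤ (1 - δ) * (Bx l b.1 b.2).card * A.card := mul_le_mul_of_nonneg_left hA2 h9
          _ ≤ _ := hlo
          _ ≤ _ := mul_le_mul_of_nonneg_left h1 hc.le
      rw [h2]
      simp only [List.length_singleton, List.dropLast_singleton, List.map_nil, pow_one]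
      linarith
  | cons b' bs ih =>
    intro b hpw hcl h5 n hs ho hq
    have hf : (1 : ℝ) ≤ 2 ^ S.fr n := one_le_pow₀ (by norm_num)
    have hlt : b.1 < b'.1 := by
      simp only [List.map_cons, List.pairwise_cons, List.mem_cons] at hpw
      exact hpw.1 _ (Or.inl rfl)
    have hpw' : ((b' :: bs).map Prod.fst).Pairwise (· < ·) := by
      rw [List.map_cons, List.pairwise_cons] at hpw
      exact hpw.2
    have hcl' : ∀ c ∈ b' :: bs, c.2 = 1 ∨ c.2 = 3 := fun c hc => hcl c (List.mem_cons_of_mem _ hc)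
    have h5' : 5 ≤ l ^ b'.1 := h5.trans (pow_le_pow_right₀ hl.le hlt.le)
    have h1 : (S.Cnt l (b :: b' :: bs) n : ℝ) =
        ∑ p ∈ Bx l b.1 b.2, (S.Cnt l (b' :: bs) (n * p) : ℝ) := by
      rw [Sys.Cnt]
      push_cast
      rfl
    by_cases hbad : Bad l δ b.1 b.2 (Nat.lcm n 15)
    · exact bad_case hδ hδ1 (hS.range _ n).1 (hS.range _ n).2 (All_nonneg _ _) hf (ExW_bad hbad)
        (Nat.cast_nonneg _)
    · have h3 := ExW_sum l δ b (b' :: bs) n
      set E := ((b' :: bs).dropLast).map (fun c => eps c.2) with hE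
      have hE' : ((b :: b' :: bs).dropLast).map (fun c => eps c.2) = eps b.2 :: E := rfl
      obtain ⟨G, hG0, hG1, hG2⟩ := hS.step n hs ho E b.2 (hcl b (List.mem_cons_self ..))
      have hlo := lower hbad G hG0
      rw [hG2] at hlo
      have hc := card_pos (Nat.lcm n 15)
      have h8 : (1 - δ) * (Bx l b.1 b.2).card * S.f (eps b.2 :: E) n ≤
          ∑ p ∈ Bx l b.1 b.2, G (sym (Nat.lcm n 15) p) := by
        refine le_of_mul_le_mul_left ?_ hc
        calc (Fintype.card (Pat (Nat.lcm n 15)) : ℝ) *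
            ((1 - δ) * (Bx l b.1 b.2).card * S.f (eps b.2 :: E) n) =
            (1 - δ) * (Bx l b.1 b.2).card *
              (Fintype.card (Pat (Nat.lcm n 15)) * S.f (eps b.2 :: E) n) := by ring
          _ ≤ _ := hlo
      have h11 : ∑ p ∈ Bx l b.1 b.2, S.f E (n * p) =
          ∑ p ∈ Bx l b.1 b.2, G (sym (Nat.lcm n 15) p) := by
        refine sum_congr rfl fun p hp => ?_
        obtain ⟨d1, d2, d3, d4, -⟩ := step_data hl h5 hs ho hq hp
        exact hG1 p d1 d2 d3 d4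
      rw [h1, hE']
      have h12 : ∑ p ∈ Bx l b.1 b.2, ((1 - δ) ^ (b' :: bs).length * (S.f E (n * p) *
          ((All l (b' :: bs) : ℝ) / 2 ^ S.fr n)) - ExW l δ (b' :: bs) (n * p)) ≤
          ∑ p ∈ Bx l b.1 b.2, (S.Cnt l (b' :: bs) (n * p) : ℝ) := by
        refine sum_le_sum fun p hp => ?_
        obtain ⟨d1, d2, -, -, d3, d4, d5⟩ := step_data hl h5 hs ho hq hp
        have := ih b' hpw' hcl' h5' (n * p) d3 d4 (d5 _ hlt)
        rwa [hS.frp n p d1 d2] at this
      refine le_trans ?_ h12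
      rw [sum_sub_distrib, ← mul_sum, ← sum_mul, h11, List.length_cons, pow_succ, All_cons l b]
      have h13 : 0 ≤ (1 - δ) ^ (b' :: bs).length := pow_nonneg (by linarith) _
      have h14 : 0 ≤ (All l (b' :: bs) : ℝ) / 2 ^ S.fr n := by
        have := All_nonneg l (b' :: bs)
        positivity
      have h15 := mul_le_mul_of_nonneg_left (mul_le_mul_of_nonneg_right h8 h14) h13
      have h16 : (1 - δ) ^ (b' :: bs).length * (1 - δ) *
          (S.f (eps b.2 :: E) n * ((Bx l b.1 b.2).card * (All l (b' :: bs) : ℝ) / 2 ^ S.fr n)) =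
          (1 - δ) ^ (b' :: bs).length * ((1 - δ) * (Bx l b.1 b.2).card * S.f (eps b.2 :: E) n *
            ((All l (b' :: bs) : ℝ) / 2 ^ S.fr n)) := by ring
      rw [h16]
      linarith

/-- (B6') -/
theorem stmtCellGen : StmtCellGen := by
  intro S hS l δ hl hδ hδ1 b bs hpw hcl h5 n hs ho hq
  exact ⟨le_cnt' hS hl hδ hδ1 bs b hpw hcl h5 n hs ho hq,
    tot_le' hS hl hδ bs b hpw hcl h5 n hs ho hq⟩

end Vale.Agent.P017.R3.H285
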