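import Vale.Agent.P017.R3.Defs

/-!
# P017: random matrices over `𝔽₂` (B4)
-/

open Finset

namespace Vale.Agent.P017.R3.H285

/-! ### The ideal chain -/

/-- `∏_{i ≤ n} (1 - 2^{-i})` -/
noncomputable def P (n : ℕ) : ℝ := ∏ i ∈ range n, (1 - (1 / 2 : ℝ) ^ (i + 1))

theorem P_zero : P 0 = 1 := by simp [P]

theorem P_succ (n : ℕ) : P (n + 1) = P n * (1 - (1 / 2 : ℝ) ^ (n + 1)) := by
  unfold P; rw [prod_range_succ]

theorem half_lt (n : ℕ) : (1 / 2 : ℝ) ^ (n + 1) < 1 := pow_lt_one₀ (by norm_num) (by norm_num)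
  (by omega)

theorem P_pos (n : ℕ) : 0 < P n := by
  unfold P
  exact prod_pos fun i _ => by have := half_lt i; linarith

theorem P_succ_le (n : ℕ) : P (n + 1) ≤ P n := by
  rw [P_succ]
  have h1 := P_pos n
  have h2 : 0 < (1 / 2 : ℝ) ^ (n + 1) := by positivity
  nlinarith

theorem P_anti : Antitone P := antitone_nat_of_succ_le P_succ_le

theorem P_le_one (n : ℕ) : P n ≤ 1 := by
  have := P_anti (Nat.zero_le n)
  rwa [P_zero] at this

theorem eta_le (n : ℕ) : eta ≤ P n := by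
  unfold eta
  refine ciInf_le ⟨0, ?_⟩ n
  rintro x ⟨k, rfl⟩
  exact (P_pos k).le

theorem eta_nonneg : 0 ≤ eta := by
  unfold eta
  exact le_ciInf fun k => (P_pos k).le

/-- probability of corank 0 after `k` steps of the ideal chain from corank `s` -/
noncomputable def Hk (k s : ℕ) : ℝ := if s ≤ k then P k ^ 2 / P (k - s) else 0

theorem Hk_le_one (k s : ℕ) : Hk k s ≤ 1 := by
  unfold Hk
  split_ifs with h
  · rw [div_le_one (P_pos _)]
    have h1 := P_anti (Nat.sub_le k s)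
    have h2 := P_le_one k
    have h3 := P_pos k
    nlinarith
  · norm_num

theorem Hk_step (k s : ℕ) :
    (1 - (1 / 2 : ℝ) ^ s) ^ 2 * Hk k (s - 1) +
      (1 - (1 - (1 / 2 : ℝ) ^ s) ^ 2 - (1 / 2 : ℝ) ^ (2 * s + 1)) * Hk k s +
      (1 / 2 : ℝ) ^ (2 * s + 1) * Hk k (s + 1) = Hk (k + 1) s := by
  by_cases hs : s ≤ k + 1
  · obtain ⟨d, hd⟩ := Nat.exists_eq_add_of_le hs
    set b : ℝ := (1 / 2 : ℝ) ^ d with hb
    set a : ℝ := (1 / 2 : ℝ) ^ s with ha
    have hab : (1 / 2 : ℝ) ^ (k + 1) = a * b := by rw [hd, pow_add]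
    have ha2 : (1 / 2 : ℝ) ^ (2 * s + 1) = a ^ 2 / 2 := by
      rw [pow_succ, pow_mul', ← ha]; ring
    have hPd := P_pos d
    have hPk := P_pos k
    have e1 : (1 - a) ^ 2 * Hk k (s - 1) = (1 - a) ^ 2 * (P k ^ 2 / P d) := by
      rcases Nat.eq_zero_or_pos s with h0 | h0
      · have : a = 1 := by rw [ha, h0, pow_zero]
        rw [this]; ring
      · unfold Hk
        rw [if_pos (by omega), show k - (s - 1) = d by omega]
    have e2 : Hk k s = P k ^ 2 * (1 - b) / P d := by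
      unfold Hk
      rcases Nat.eq_zero_or_pos d with h0 | h0
      · rw [if_neg (by omega), hb, h0]
        simp
      · obtain ⟨d', rfl⟩ : ∃ d', d = d' + 1 := ⟨d - 1, by omega⟩
        rw [if_pos (by omega), show k - s = d' by omega, P_succ]
        have h3 := P_pos d'
        have h4 : (1 - (1 / 2 : ℝ) ^ (d' + 1)) ≠ 0 := by have := half_lt d'; linarith
        rw [hb]
        field_simp
    have e3 : Hk k (s + 1) = P k ^ 2 * (1 - b) * (1 - 2 * b) / P d := by
      unfold Hk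
      rcases d with _ | _ | d'
      · rw [if_neg (by omega), hb]
        simp
      · rw [if_neg (by omega), hb]
        norm_num
      · rw [if_pos (by omega), show k - (s + 1) = d' by omega, P_succ, P_succ]
        have h3 := P_pos d'
        have h4 : (1 - (1 / 2 : ℝ) ^ (d' + 1)) ≠ 0 := by have := half_lt d'; linarith
        have h5 : (1 - (1 / 2 : ℝ) ^ (d' + 1 + 1)) ≠ 0 := by have := half_lt (d' + 1); linarith
        have h6 : 2 * b = (1 / 2 : ℝ) ^ (d' + 1) := by rw [hb, pow_succ _ (d' + 1)]; ring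
        rw [h6, hb]
        field_simp
    have e4 : Hk (k + 1) s = P k ^ 2 * (1 - a * b) ^ 2 / P d := by
      unfold Hk
      rw [if_pos hs, show k + 1 - s = d by omega, P_succ, hab]
      ring
    rw [e1, e2, e3, e4, ha2]
    field_simp
    ring
  · have h1 : Hk k (s - 1) = 0 := by unfold Hk; rw [if_neg (by omega)]
    have h2 : Hk k s = 0 := by unfold Hk; rw [if_neg (by omega)]
    have h3 : Hk k (s + 1) = 0 := by unfold Hk; rw [if_neg (by omega)]
    have h4 : Hk (k + 1) s = 0 := by unfold Hk; rw [if_neg (by omega)]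
    rw [h1, h2, h3, h4]; ring

theorem P_add (d : ℕ) : ∀ s : ℕ, P d * (1 - (1 / 2 : ℝ) ^ d + (1 / 2 : ℝ) ^ (d + s)) ≤ P (d + s)
  | 0 => by simp
  | s + 1 => by
    have ih := P_add d s
    rw [← add_assoc, P_succ]
    have h0 := P_pos d
    have h1 : (1 / 2 : ℝ) ^ (d + s + 1) = (1 / 2 : ℝ) ^ (d + s) / 2 := by rw [pow_succ]; ring
    have h2 : (1 / 2 : ℝ) ^ (d + s) ≤ (1 / 2 : ℝ) ^ d :=
      pow_le_pow_of_le_one (by norm_num) (by norm_num) (by omega)
    have h3 : 0 < (1 / 2 : ℝ) ^ (d + s) := by positivity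
    have h4 : (1 / 2 : ℝ) ^ d ≤ 1 := pow_le_one₀ (by norm_num) (by norm_num)
    rw [h1]
    set x := (1 / 2 : ℝ) ^ d
    set y := (1 / 2 : ℝ) ^ (d + s)
    have h5 : (1 - x + y) - y / 2 ≤ (1 - x + y) * (1 - y / 2) := by nlinarith
    have h6 : 0 ≤ 1 - y / 2 := by linarith
    calc P d * (1 - x + y / 2) = P d * ((1 - x + y) - y / 2) := by ring
      _ ≤ P d * ((1 - x + y) * (1 - y / 2)) := mul_le_mul_of_nonneg_left h5 h0.le
      _ = (P d * (1 - x + y)) * (1 - y / 2) := by ring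
      _ ≤ P (d + s) * (1 - y / 2) := mul_le_mul_of_nonneg_right ih h6

theorem Hk_ge (k s : ℕ) : eta * (1 - 2 ^ s / 2 ^ k) ≤ Hk k s := by
  by_cases h : s ≤ k
  · obtain ⟨d, rfl⟩ := Nat.exists_eq_add_of_le h
    unfold Hk
    rw [if_pos h, show s + d - s = d by omega, add_comm s d]
    have h1 := P_add d s
    have h2 := eta_le (d + s)
    have h3 := P_pos d
    have h4 := P_pos (d + s)
    have h5 : 0 < (1 / 2 : ℝ) ^ (d + s) := by positivity
    have h6 : (2 : ℝ) ^ s / 2 ^ (d + s) = (1 / 2) ^ d := by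
      rw [pow_add, one_div, inv_pow]
      field_simp
    have h7 : (1 / 2 : ℝ) ^ d ≤ 1 := pow_le_one₀ (by norm_num) (by norm_num)
    rw [h6, le_div_iff₀ h3]
    have h8 : P d * (1 - (1 / 2 : ℝ) ^ d) ≤ P (d + s) := by nlinarith
    have h9 : 0 ≤ P d * (1 - (1 / 2 : ℝ) ^ d) := mul_nonneg h3.le (by linarith)
    calc eta * (1 - (1 / 2) ^ d) * P d = eta * (P d * (1 - (1 / 2) ^ d)) := by ring
      _ ≤ P (d + s) * P (d + s) := mul_le_mul h2 h8 h9 h4.le
      _ = P (d + s) ^ 2 := by ring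
  · have h1 : Hk k s = 0 := by unfold Hk; rw [if_neg h]
    rw [h1]
    have h2 : (2 : ℝ) ^ k ≤ 2 ^ s := pow_le_pow_right₀ (by norm_num) (by omega)
    have h3 : 1 ≤ (2 : ℝ) ^ s / 2 ^ k := by rwa [one_le_div (by positivity)]
    have := eta_nonneg
    nlinarith

/-! ### The model -/

variable {V : Type} [Fintype V] [DecidableEq V]

theorem prob_nil (M : Matrix V V (ZMod 2)) (μ : V → ZMod 2) :
    prob [] V M μ = if ck M = 0 then 1 else 0 := by rw [prob]

theorem prob_cons (e : ZMod 2) (ε : List (ZMod 2)) (M : Matrix V V (ZMod 2)) (μ : V → ZMod 2) :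
    prob (e :: ε) V M μ = (∑ φ : V → ZMod 2, ∑ w : ZMod 2,
      prob ε (Option V) (ext M φ (φ + e • μ) w) (extv μ e)) / 2 ^ (Fintype.card V + 1) := by
  rw [prob]

theorem prob_nonneg : ∀ (ε : List (ZMod 2)) (V : Type) [Fintype V] [DecidableEq V]
    (M : Matrix V V (ZMod 2)) (μ : V → ZMod 2), 0 ≤ prob ε V M μ
  | [], V, _, _, M, μ => by
    rw [prob_nil]; split_ifs <;> norm_num
  | e :: ε, V, _, _, M, μ => by
    rw [prob_cons]
    exact div_nonneg (sum_nonneg fun φ _ => sum_nonneg fun w _ => prob_nonneg ε _ _ _)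
      (by positivity)

/-- number of primes `3 mod 4` -/
def ones {V : Type} [Fintype V] (μ : V → ZMod 2) : ℕ := (univ.filter fun a => μ a = 1).card

omit [Fintype V] [DecidableEq V] in
theorem rec_ext {M : Matrix V V (ZMod 2)} {μ : V → ZMod 2} (h : Rec M μ) (φ : V → ZMod 2)
    (e w : ZMod 2) : Rec (ext M φ (φ + e • μ) w) (extv μ e) := by
  have h2 : ∀ x : ZMod 2, x + x = 0 := by decide
  intro a b hab
  rcases a with _ | a <;> rcases b with _ | b
  · exact absurd rfl hab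
  · change (φ + e • μ) b + φ b = e * μ b
    have := h2 (φ b)
    simp only [Pi.add_apply, Pi.smul_apply, smul_eq_mul]
    linear_combination this
  · change φ a + (φ + e • μ) a = μ a * e
    have := h2 (φ a)
    simp only [Pi.add_apply, Pi.smul_apply, smul_eq_mul]
    linear_combination this
  · exact h a b (fun hh => hab (by rw [hh]))

omit [DecidableEq V] in
theorem ones_ext (μ : V → ZMod 2) (e : ZMod 2) :
    (1 / 2 : ℝ) ^ ones (extv μ e) = (1 / 2 : ℝ) ^ ones μ * (if e = 1 then 1 / 2 else 1) := by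
  have h : ones (extv μ e) = ones μ + (if e = 1 then 1 else 0) := by
    unfold ones
    rw [card_filter, card_filter, Fintype.sum_option, add_comm]
    rfl
  rw [h, pow_add]
  split_ifs <;> simp

theorem sum_const2 (c : ℝ) : ∑ _φ : V → ZMod 2, ∑ _w : ZMod 2, c =
    2 ^ (Fintype.card V + 1) * c := by
  simp only [sum_const, card_univ, ZMod.card, Fintype.card_fun, nsmul_eq_mul]
  push_cast
  ring

/-- a lower bound of the probability for all matrices -/
def Low (ε : List (ZMod 2)) (α β γ δ : ℝ) : Prop := ∀ (V : Type) [Fintype V] [DecidableEq V]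
  (M : Matrix V V (ZMod 2)) (μ : V → ZMod 2), Rec M μ →
  α - β * 2 ^ ck M - γ * sp M - δ * (1 / 2) ^ ones μ ≤ prob ε V M μ

theorem low_cons (h2 : StmtLA2) (h3 : StmtLA3) {ε : List (ZMod 2)} {α β γ δ : ℝ} (hβ : 0 ≤ β)
    (hγ : 0 ≤ γ) (h : Low ε α β γ δ) (e : ZMod 2) :
    Low (e :: ε) (α - β) (β / 2) (γ / 2) (γ + δ * (if e = 1 then 1 / 2 else 1)) := by
  intro V _ _ M μ hR
  rw [prob_cons, le_div_iff₀ (by positivity)]
  have k1 : ∑ φ : V → ZMod 2, ∑ w : ZMod 2,
      (α - β * 2 ^ ck (ext M φ (φ + e • μ) w) - γ * sp (ext M φ (φ + e • μ) w) -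
        δ * (1 / 2) ^ ones (extv μ e)) ≤
      ∑ φ : V → ZMod 2, ∑ w : ZMod 2, prob ε (Option V) (ext M φ (φ + e • μ) w) (extv μ e) :=
    sum_le_sum fun φ _ => sum_le_sum fun w _ => h _ _ _ (rec_ext hR φ e w)
  refine le_trans ?_ k1
  simp only [sum_sub_distrib, ← mul_sum, sum_const2]
  have k2 := h2 V M (e • μ)
  have k3 := h3 V M μ e hR
  have k4 : (1 / 2 : ℝ) ^ (univ.filter fun a => μ a = 1).card = (1 / 2 : ℝ) ^ ones μ := rfl
  rw [k4] at k3
  rw [ones_ext]
  have k5 := mul_le_mul_of_nonneg_left k2 hβ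
  have k6 := mul_le_mul_of_nonneg_left k3 hγ
  have k7 : (0 : ℝ) < 2 ^ (Fintype.card V + 1) := by positivity
  nlinarith

theorem low_append (h2 : StmtLA2) (h3 : StmtLA3) {ε₂ : List (ZMod 2)} {α β γ δ : ℝ} (hβ : 0 ≤ β)
    (hγ : 0 ≤ γ) (hδ : 0 ≤ δ) (h : Low ε₂ α β γ δ) : ∀ ε₁ : List (ZMod 2),
    ∃ α' β' γ' δ' : ℝ, Low (ε₁ ++ ε₂) α' β' γ' δ' ∧ α - 2 * β ≤ α' - 2 * β' ∧ 0 ≤ β' ∧ β' ≤ β ∧
      0 ≤ γ' ∧ γ' ≤ γ * (1 / 2) ^ ε₁.count 1 ∧ 0 ≤ δ' ∧
      δ' + 2 * γ' ≤ (1 / 2) ^ ε₁.count 1 * (δ + 2 * γ + 2 * γ * ε₁.count 1)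
  | [] => ⟨α, β, γ, δ, h, le_rfl, hβ, le_rfl, hγ, by simp, hδ, by simp⟩
  | e :: ε₁ => by
    obtain ⟨α', β', γ', δ', i1, i2, i3, i4, i5, i6, i7, i8⟩ := low_append h2 h3 hβ hγ hδ h ε₁
    refine ⟨_, _, _, _, low_cons h2 h3 i3 i5 i1 e, by linarith, by linarith, by linarith,
      by linarith, ?_, ?_, ?_⟩
    · by_cases he : e = 1
      · rw [he, List.count_cons_self, pow_succ]
        linarith
      · rw [List.count_cons_of_ne (fun hh => he hh)]
        linarith
    · split_ifs <;> linarith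
    · by_cases he : e = 1
      · rw [if_pos he, he, List.count_cons_self, pow_succ]
        push_cast
        set x : ℝ := (1 / 2) ^ ε₁.count 1
        set c : ℝ := ((ε₁.count 1 : ℕ) : ℝ)
        nlinarith
      · rw [if_neg he, List.count_cons_of_ne (fun hh => he hh)]
        linarith

theorem sp_le (M : Matrix V V (ZMod 2)) : (sp M : ℝ) ≤ 2 ^ ck M := by
  have h1 : sp M ≤ Nat.card (LinearMap.ker (Matrix.mulVecLin M)) := by
    classical
    rw [Nat.card_eq_fintype_card]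
    unfold sp
    rw [← Fintype.card_coe]
    refine Fintype.card_le_of_injective
      (fun x => (⟨x.1, ?_⟩ : LinearMap.ker (Matrix.mulVecLin M))) ?_
    · have := (mem_filter.1 x.2).2.2.1
      rw [LinearMap.mem_ker, Matrix.mulVecLin_apply]
      exact this
    · intro x y hxy
      exact Subtype.ext (congrArg (fun z : LinearMap.ker (Matrix.mulVecLin M) => z.1) hxy)
  have h2 : Nat.card (LinearMap.ker (Matrix.mulVecLin M)) = 2 ^ ck M := by
    unfold ck
    rw [Module.natCard_eq_pow_finrank (K := ZMod 2)]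
    simp
  rw [h2] at h1
  exact_mod_cast h1

/-- comparison with the ideal chain -/
theorem prob_start (h1 : StmtLA1) (h3 : StmtLA3) : ∀ (ε : List (ZMod 2)) (V : Type) [Fintype V]
    [DecidableEq V] (M : Matrix V V (ZMod 2)) (μ : V → ZMod 2), Rec M μ →
    Hk ε.length (ck M) - 2 * sp M - 2 * ε.length * (1 / 2) ^ ones μ ≤ prob ε V M μ
  | [], V, _, _, M, μ, hR => by
    rw [prob_nil]
    have h0 : (0 : ℝ) ≤ sp M := Nat.cast_nonneg _
    have h4 : Hk 0 (ck M) = if ck M = 0 then 1 else 0 := by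
      unfold Hk
      by_cases h : ck M = 0
      · rw [if_pos (by omega), if_pos h, h]; simp [P_zero]
      · rw [if_neg (by omega), if_neg h]
    simp only [List.length_nil, Nat.cast_zero, mul_zero, zero_mul, sub_zero]
    rw [h4]
    linarith
  | e :: ε, V, _, _, M, μ, hR => by
    have hx : (0 : ℝ) < (1 / 2) ^ ones μ := by positivity
    by_cases hs : sp M = 0
    · rw [prob_cons, le_div_iff₀ (by positivity)]
      have k1 : ∑ φ : V → ZMod 2, ∑ w : ZMod 2,
          (Hk ε.length (ck (ext M φ (φ + e • μ) w)) - 2 * sp (ext M φ (φ + e • μ) w) -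
            2 * ε.length * (1 / 2) ^ ones (extv μ e)) ≤
          ∑ φ : V → ZMod 2, ∑ w : ZMod 2, prob ε (Option V) (ext M φ (φ + e • μ) w) (extv μ e) :=
        sum_le_sum fun φ _ => sum_le_sum fun w _ =>
          prob_start h1 h3 ε _ _ _ (rec_ext hR φ e w)
      refine le_trans ?_ k1
      simp only [sum_sub_distrib, ← mul_sum, sum_const2]
      rw [h1 V M (e • μ) hs (fun s => Hk ε.length s), Hk_step]
      have k3 := h3 V M μ e hR
      have k4 : (1 / 2 : ℝ) ^ (univ.filter fun a => μ a = 1).card = (1 / 2 : ℝ) ^ ones μ := rfl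
      rw [k4, hs] at k3
      rw [ones_ext, hs]
      have k5 : (1 / 2 : ℝ) ^ ones μ * (if e = 1 then 1 / 2 else 1) ≤ (1 / 2 : ℝ) ^ ones μ := by
        split_ifs <;> linarith
      have k6 : (0 : ℝ) ≤ ε.length := Nat.cast_nonneg _
      have k7 : (0 : ℝ) < 2 ^ (Fintype.card V + 1) := by positivity
      rw [List.length_cons]
      push_cast at k3 ⊢
      set y : ℝ := (1 / 2) ^ ones μ
      set z : ℝ := y * (if e = 1 then 1 / 2 else 1)
      set C : ℝ := 2 ^ (Fintype.card V + 1)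
      have k8 : 2 * (ε.length : ℝ) * z ≤ 2 * ε.length * y :=
        mul_le_mul_of_nonneg_left k5 (by positivity)
      have k9 := mul_le_mul_of_nonneg_left k8 k7.le
      nlinarith
    · have k0 := prob_nonneg (e :: ε) V M μ
      have k1 := Hk_le_one (e :: ε).length (ck M)
      have k2 : (1 : ℝ) ≤ sp M := by exact_mod_cast Nat.one_le_iff_ne_zero.2 hs
      have k3 : (0 : ℝ) ≤ 2 * ((e :: ε).length : ℝ) * (1 / 2) ^ ones μ := by positivity
      linarith

theorem eta_le_one : eta ≤ 1 := (eta_le 0).trans (P_zero).le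

theorem low_start (h1 : StmtLA1) (h3 : StmtLA3) (ε : List (ZMod 2)) :
    Low ε eta (eta / 2 ^ ε.length) 2 (2 * ε.length) := by
  intro V _ _ M μ hR
  refine le_trans ?_ (prob_start h1 h3 ε V M μ hR)
  have := Hk_ge ε.length (ck M)
  have e1 : eta * (1 - 2 ^ ck M / 2 ^ ε.length) = eta - eta / 2 ^ ε.length * 2 ^ ck M := by ring
  rw [e1] at this
  linarith

/-- the bound for a concatenation -/
theorem prob_app (h1 : StmtLA1) (h2 : StmtLA2) (h3 : StmtLA3) (ε₁ ε₂ : List (ZMod 2))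
    (M : Matrix V V (ZMod 2)) (μ : V → ZMod 2) (hR : Rec M μ) :
    eta - 2 / 2 ^ ε₂.length - 1 / 2 ^ ε₂.length * 2 ^ ck M -
      (1 / 2) ^ ε₁.count 1 * (2 * 2 ^ ck M + 2 * ε₂.length + 4 + 4 * ε₁.count 1) ≤
      prob (ε₁ ++ ε₂) V M μ := by
  have hb : (0 : ℝ) ≤ eta / 2 ^ ε₂.length := div_nonneg eta_nonneg (by positivity)
  have hb1 : eta / 2 ^ ε₂.length ≤ 1 / 2 ^ ε₂.length :=
    div_le_div_of_nonneg_right eta_le_one (by positivity)
  obtain ⟨α', β', γ', δ', i1, i2, i3, i4, i5, i6, i7, i8⟩ :=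
    low_append h2 h3 hb (by norm_num) (by positivity) (low_start h1 h3 ε₂) ε₁
  refine le_trans ?_ (i1 V M μ hR)
  have hs := sp_le M
  have hs0 : (0 : ℝ) ≤ sp M := Nat.cast_nonneg _
  have hk : (0 : ℝ) < 2 ^ ck M := by positivity
  have hy : (1 / 2 : ℝ) ^ ones μ ≤ 1 := pow_le_one₀ (by norm_num) (by norm_num)
  have hy0 : (0 : ℝ) < (1 / 2 : ℝ) ^ ones μ := by positivity
  have j1 : β' * 2 ^ ck M ≤ 1 / 2 ^ ε₂.length * 2 ^ ck M :=
    mul_le_mul_of_nonneg_right (i4.trans hb1) hk.le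
  have j2 : γ' * sp M ≤ 2 * (1 / 2) ^ ε₁.count 1 * 2 ^ ck M :=
    mul_le_mul i6 hs hs0 (by positivity)
  have j3 : δ' * (1 / 2) ^ ones μ ≤ δ' := mul_le_of_le_one_right i7 hy
  have j4 : (2 : ℝ) / 2 ^ ε₂.length = 2 * (1 / 2 ^ ε₂.length) := by ring
  rw [j4]
  nlinarith

theorem avg_mono {f g : (V → ZMod 2) → ℝ} (h : ∀ u, f u ≤ g u) : avg f ≤ avg g := by
  unfold avg
  exact div_le_div_of_nonneg_right (sum_le_sum fun u _ => h u) (by positivity)

theorem avg_lin (a b : ℝ) (g : (V → ZMod 2) → ℝ) : avg (fun u => a - b * g u) = a - b * avg g := by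
  unfold avg
  rw [sum_sub_distrib, sum_const, card_univ, Fintype.card_fun, ZMod.card, ← mul_sum,
    nsmul_eq_mul]
  have : (0 : ℝ) < 2 ^ Fintype.card V := by positivity
  push_cast
  field_simp

/-- (B4) -/
theorem stmtRM (h1 : StmtLA1) (h2 : StmtLA2) (h3 : StmtLA3) : StmtRM := by
  intro η B hη
  have hd : 0 < (eta - η) / 2 := by linarith
  obtain ⟨k, hk⟩ : ∃ k : ℕ, (1 / 2 : ℝ) ^ k < (eta - η) / 2 / (2 + |B|) :=
    exists_pow_lt_of_lt_one (by positivity) (by norm_num)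
  have hk' : (2 + |B|) * (1 / 2) ^ k ≤ (eta - η) / 2 := by
    rw [lt_div_iff₀ (by positivity)] at hk
    linarith
  have ht : Filter.Tendsto (fun c : ℕ => (2 * |B| + 2 * k + 4) * (1 / 2 : ℝ) ^ c +
      4 * (c * (1 / 2 : ℝ) ^ c)) Filter.atTop (nhds 0) := by
    have t1 : Filter.Tendsto (fun c : ℕ => (1 / 2 : ℝ) ^ c) Filter.atTop (nhds 0) :=
      tendsto_pow_atTop_nhds_zero_of_lt_one (by norm_num) (by norm_num)
    have t2 : Filter.Tendsto (fun c : ℕ => (c : ℝ) * (1 / 2 : ℝ) ^ c) Filter.atTop (nhds 0) :=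
      tendsto_self_mul_const_pow_of_lt_one (by norm_num) (by norm_num)
    have t3 := (t1.const_mul (2 * |B| + 2 * k + 4)).add (t2.const_mul 4)
    simpa using t3
  obtain ⟨h0, hh0⟩ := Filter.eventually_atTop.1 (ht.eventually (gt_mem_nhds hd))
  refine ⟨max h0 1, k, ?_⟩
  intro ε V _ _ A μ hR hc hB
  set ε₁ := ε.take (ε.length - k) with he1
  set ε₂ := ε.drop (ε.length - k) with he2
  have happ : ε = ε₁ ++ ε₂ := (List.take_append_drop _ _).symm
  have hl1 : 1 ≤ ε.length - k := by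
    have a1 : 1 ≤ ε₁.count 1 := le_trans (le_max_right _ _) hc
    have a2 : ε₁.count 1 ≤ ε₁.length := List.count_le_length
    have a3 : ε₁.length ≤ ε.length - k := by
      rw [he1, List.length_take]; exact min_le_left _ _
    omega
  have hl2 : ε₂.length = k := by
    rw [he2, List.length_drop]; omega
  have hc0 := hh0 (ε₁.count 1) (le_trans (le_max_left _ _) hc)
  set c := ε₁.count 1 with hcdef
  have hRu : ∀ u : V → ZMod 2, Rec (A + Matrix.diagonal u) μ := by
    intro u a b hab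
    rw [Matrix.add_apply, Matrix.add_apply, Matrix.diagonal_apply_ne _ hab,
      Matrix.diagonal_apply_ne _ hab.symm, add_zero, add_zero]
    exact hR a b hab
  have key : ∀ u : V → ZMod 2,
      (eta - 2 * (1 / 2) ^ k - (1 / 2) ^ c * (2 * k + 4 + 4 * c)) -
        ((1 / 2) ^ k + 2 * (1 / 2) ^ c) * (2 : ℝ) ^ ck (A + Matrix.diagonal u) ≤
      prob ε V (A + Matrix.diagonal u) μ := by
    intro u
    have := prob_app h1 h2 h3 ε₁ ε₂ (A + Matrix.diagonal u) μ (hRu u)
    rw [← happ, hl2, ← hcdef] at this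
    have e1 : (1 : ℝ) / 2 ^ k = (1 / 2) ^ k := by rw [one_div_pow]
    have e2 : (2 : ℝ) / 2 ^ k = 2 * (1 / 2) ^ k := by rw [← e1]; ring
    rw [e1, e2] at this
    refine le_trans (le_of_eq ?_) this
    ring
  refine le_trans ?_ (avg_mono key)
  rw [avg_lin (V := V) (eta - 2 * (1 / 2) ^ k - (1 / 2) ^ c * (2 * k + 4 + 4 * c))
    ((1 / 2) ^ k + 2 * (1 / 2) ^ c) (fun u => (2 : ℝ) ^ ck (A + Matrix.diagonal u))]
  have hB' : avg (fun u : V → ZMod 2 => (2 : ℝ) ^ ck (A + Matrix.diagonal u)) ≤ |B| :=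
    hB.trans (le_abs_self B)
  have hq : (0 : ℝ) ≤ (1 / 2) ^ k + 2 * (1 / 2) ^ c := by positivity
  have := mul_le_mul_of_nonneg_left hB' hq
  nlinarith

end Vale.Agent.P017.R3.H285
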